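import Vale.Agent.P218G.St
import Mathlib.Analysis.Calculus.IteratedDeriv.Defs
import Mathlib.Topology.UniformSpace.UniformConvergence

/-! Locally smooth convergence, with multiplicity one, of the rescalings of a weak flow. -/

open MeasureTheory Set Filter
open scoped ContDiff

namespace Vale.Agent.P218S2.St

open Vale.Agent.P218 (rescaled)
open Vale.Agent.P218G.St (hm)

variable {E : Type} [NormedAddCommGroup E] [InnerProductSpace ℝ E] [FiniteDimensional ℝ E]
  [MeasurableSpace E] [BorelSpace E]

/-- The rescalings of `μ` about `(x₀, t₀)` converge, as `λ → ∞`, locally smoothly and with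
multiplicity one, to the flow `s ↦ √(-s) S`: every point `(s, x)`, `s < 0`, has an open space-time
neighbourhood `W` in which the limit flow is the zero set of a smooth function `v` whose spatial
gradient does not vanish on it, the rescaled measures are, for all large `λ` and at all times, the
area measures of the zero sets of smooth functions `w λ`, and all space-time derivatives of `w λ`
converge to those of `v` uniformly on `W`. -/
def SmoothlyConvergesTo (μ : ℝ → Measure E) (x₀ : E) (t₀ : ℝ) (S : Set E) : Prop :=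
  ∀ s < 0, ∀ x : E, ∃ (W : Set (ℝ × E)) (w : ℝ → ℝ × E → ℝ) (v : ℝ × E → ℝ),
    IsOpen W ∧ (s, x) ∈ W ∧ ContDiff ℝ ∞ v ∧ (∀ lam, ContDiff ℝ ∞ (w lam)) ∧
    (∀ p ∈ W, p.1 < 0 ∧ (p.2 ∈ (fun y => √(-p.1) • y) '' S ↔ v p = 0) ∧
      (v p = 0 → gradient (fun y => v (p.1, y)) p.2 ≠ 0)) ∧
    (∀ᶠ lam in atTop, ∀ τ, (rescaled 2 μ x₀ t₀ lam τ).restrict {y | (τ, y) ∈ W} =
      hm {y | (τ, y) ∈ W ∧ w lam (τ, y) = 0}) ∧
    ∀ k : ℕ, TendstoUniformlyOn (fun lam => iteratedFDeriv ℝ k (w lam)) (iteratedFDeriv ℝ k v)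
      atTop W

end Vale.Agent.P218S2.St
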