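import Vale.Agent.P218S2.Top
import Vale.Agent.P218S2.St
import Vale.Agent.P218G.GRs
import Vale.Agent.P218G.Fin
import Vale.Agent.P218G.StEq

/-! Weak convergence of the rescalings to a smooth shrinker of multiplicity one is locally smooth
convergence. -/

open MeasureTheory Set Filter Topology Metric
open scoped ENNReal NNReal RealInnerProductSpace ContDiff

namespace Vale.Agent.P218S2

open Vale.Agent.P218 Vale.Agent.P218G Vale.Agent.P218G.GL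
open Vale.Agent.P218G.Lit Vale.Agent.P218G.Rg Vale.Agent.P218G.WL
open Vale.Agent.P218FT Vale.Agent.P218FT.Conv
open Vale.Agent.P218F.Dyn (hm)

variable {ι : Type} {l : Filter ι} {μ : ι → ℝ → Measure E3} {a D : ℝ}

lemma low_ev' (hμ : ∀ᶠ i in l, GS (μ i) a D) {κ : Measure E3} (hκ : Ent κ D) {y : E3} {t δ B : ℝ}
    (hw : WL l (fun i => μ i (t - δ)) κ) (hδ : 0 < δ) (h3 : a ≤ t - δ) (h1 : GA κ y δ < B) :
    ∃ r : ℝ, 0 < r ∧ a ≤ t - 2 * r ∧ ∀ᶠ i in l,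
      ∀ (z : E3) (t' σ : ℝ), ‖z - y‖ < r → |t' - t| < r → 0 < σ → σ < r →
        GA (μ i (t' - σ)) z σ < B := by
  have h4 : Tendsto (fun q : ι × E3 × ℝ => q.2.2 - (t - δ)) (l ×ˢ 𝓝 (y, t)) (𝓝 δ) := by
    simpa using (((continuous_snd.tendsto (y, t)).comp (tendsto_snd (f := l))).sub_const (t - δ))
  have h5 := ((hw.comp (tendsto_fst (g := 𝓝 (y, t)))).GA_move
    (tendsto_fst.eventually (hμ.mono fun i hi => hi.ent _ h3)) hκ hδ
    ((continuous_fst.tendsto (y, t)).comp tendsto_snd) h4).eventually (gt_mem_nhds h1)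
  obtain ⟨A, hA, V, hV, h6⟩ := mem_prod_iff.1 h5
  obtain ⟨r, hr, h7⟩ := Metric.mem_nhds_iff.1 hV
  have m1 := min_le_left r (δ / 2)
  have m2 := min_le_right r (δ / 2)
  refine ⟨min r (δ / 2), lt_min hr (half_pos hδ), by linarith, ?_⟩
  filter_upwards [hA, hμ] with i a1 a2 z t' σ b1 b2 b3 b4
  have b5 := h6 (mk_mem_prod a1 (h7 (show (z, t') ∈ ball (y, t) r by
    rw [← ball_prod_same]
    exact ⟨mem_ball_iff_norm.2 (b1.trans_le m1), b2.trans_le m1⟩)))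
  have b6 := GA_mono a2 z (t := t') (σ := t' - (t - δ)) (by linarith)
    (by linarith [(abs_lt.1 b2).1]) b3
  rw [sub_sub_cancel] at b6
  exact b6.trans_lt b5

lemma good_of (D : ℝ) : ∃ ε₁ : ℝ, 0 < ε₁ ∧ ∀ ε ≤ ε₁, ∀ (l : Filter ℝ) (μ : ℝ → ℝ → Measure E3)
    (K : ℝ → Set (ℝ × E3)) (x : E3) (t δ : ℝ) (κ : Measure E3),
    (∀ᶠ i in l, RS (μ i) (t - 1) D ε (K i)) → Ent κ D → WL l (fun i => μ i (t - δ)) κ → 0 < δ →
    δ ≤ 1 → GA κ x δ < (1 + ε) * om0 → (t, x) ∈ Good l μ K := by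
  obtain ⟨ε₁, r, C, h1, hr, hW⟩ := smooth_white D
  refine ⟨ε₁, h1, fun ε hε l μ K x t δ κ hμ hκ hw hδ hδ1 hθ => ?_⟩
  obtain ⟨R, hR, a1, a2⟩ := low_ev' (hμ.mono fun _ hi => hi.gs) hκ hw hδ (by linarith) hθ
  have b0 : 0 < min 1 (R / 7) := by positivity
  have b1 := min_le_left 1 (R / 7)
  have b2 := min_le_right 1 (R / 7)
  generalize min 1 (R / 7) = ρ at b0 b1 b2
  refine ⟨Ioo (t - R / 2) (t + R / 2) ×ˢ ball x (R / 2), prod_mem_nhds (Ioo_mem_nhds (by linarith)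
    (by linarith)) (ball_mem_nhds x (half_pos hR)), r * (ρ / 10), C / (ρ / 10), by positivity, ?_⟩
  filter_upwards [hμ, a2] with i c1 c2
  have c3 : ∀ q : ℝ × E3, |q.1 - t| < R → ‖q.2 - x‖ < R → q ∈ K i := fun q d1 d2 => by
    have d3 := (abs_lt.1 d1).1
    obtain ⟨θ', d4⟩ := exists_dens c1.gs q.2 (t := q.1) (by linarith)
    exact c1.gap q.2 q.1 θ' (by linarith) d4 ((d4.le c1.gs (by linarith) (half_pos hR)).trans_lt
      (c2 _ _ _ d2 d1 (half_pos hR) (half_lt_self hR)))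
  refine ⟨fun q hq => c3 q (abs_lt.2 ⟨by linarith [hq.1.1], by linarith [hq.1.2]⟩)
    ((mem_ball_iff_norm.1 hq.2).trans (half_lt_self hR)), fun q hq hx => ?_⟩
  have d1 := mem_ball_iff_norm.1 hq.2
  refine hW (μ i) (t - 1) (K i) q.2 q.1 ρ b0 c1.gs (by nlinarith [hq.1.1])
    ((low_of c2 b0 b1 b2 d1 (abs_lt.2 ⟨by linarith [hq.1.1], by linarith [hq.1.2]⟩)).mono hε)
    c1.mcf (fun p hp => c3 p (abs_lt.2 ⟨by nlinarith [hq.1.1, hp.1.1], by
      linarith [hq.1.2, hp.1.2]⟩) ?_) hx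
  linarith [mem_closedBall_iff_norm.1 hp.2, norm_sub_le_norm_sub_add_norm_sub p.2 q.2 x]

/-- the density ratios of a self-similar flow at small scales -/
lemma exists_delta {S : Set E3} (hS : IsSurf S) (hE : Ent (hm S) D) (x : E3) {t ε : ℝ}
    (ht : t < 0) (hε : 0 < ε) :
    ∃ δ : ℝ, 0 < δ ∧ δ ≤ 1 ∧ GA (hm (ssFlow S (t - δ))) x δ < (1 + ε) * om0 := by
  have h0 : 0 < -t := neg_pos.2 ht
  obtain ⟨σ₀, h1, h2⟩ := slow_proof S D hS hE (‖x‖ / √(-t)) (ε / 2) (half_pos hε)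
  obtain ⟨δ, d0, d1, d2⟩ : ∃ δ : ℝ, 0 < δ ∧ δ ≤ 1 ∧ δ ≤ σ₀ * -t :=
    ⟨min 1 (σ₀ * -t), by positivity, min_le_left _ _, min_le_right _ _⟩
  have h3 : 0 < -(t - δ) := by linarith
  have h4 := Real.sqrt_pos.2 h3
  refine ⟨δ, d0, d1, ?_⟩
  rw [ssFlow, P218F.DynBridge.hm_scale h4, GA_dil h4, Real.sq_sqrt h3.le]
  refine (h2 _ _ ?_ (by positivity) ?_).trans_lt (by nlinarith [om0_pos])
  · rw [zero_add, norm_smul, norm_inv, Real.norm_of_nonneg h4.le, inv_mul_eq_div]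
    gcongr
    linarith
  · rw [div_le_iff₀ h3]
    nlinarith

theorem slim_of_conv {μ : ℝ → Measure E3} (hμ : IsIntegralBrakkeFlow 2 μ) (h0 : μ 0 univ < ⊤)
    (hU : IsUnitRegular μ) {x₀ : E3} {t₀ : ℝ} (ht : 0 < t₀) {S : Set E3} (hS : IsShr S)
    (h : ConvTo μ x₀ t₀ S) : ∃ K : ℝ → Set (ℝ × E3),
      SLim atTop (fun lam => Spt (rescaled 2 μ x₀ t₀ lam)) (ssFlow S) (Iio 0) ∧
      (∀ t < 0, ∀ x : E3, ∃ W ∈ 𝓝 (t, x), ∀ᶠ lam in atTop, W ⊆ K lam) ∧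
      ∀ᶠ lam in atTop, ∀ s, (rescaled 2 μ x₀ t₀ lam s).restrict (tsl (K lam) s) =
        hm (Spt (rescaled 2 μ x₀ t₀ lam) s ∩ tsl (K lam) s) := by
  have hG := gs_proof μ hμ h0 _ (half_pos ht)
  generalize (μ 0).real univ / (t₀ / 2) = D at hG
  obtain ⟨ε₀, e0, h1⟩ := rs_ibf D
  obtain ⟨ε₁, e1, h2⟩ := good_of D
  have hR := fun b => ev_rs (l := atTop) (lam := fun lam : ℝ => lam)
    ((h1 μ _ hμ h0 hU (half_pos ht).le hG).mono (min_le_left ε₀ ε₁)) tendsto_id (fun _ => x₀)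
    (tendsto_const_nhds (x := t₀)) (half_lt_self ht) b
  have hL := isMCF_ssFlow hS
  have hlf : ∀ s < 0, IsLocallyFiniteMeasure (hm (ssFlow S s)) := fun s hs =>
    P218F.DynBridge.locFin_hm (hL.isSurf hs)
  have hw : ∀ s < 0, WL atTop (fun lam => rescaled 2 μ x₀ t₀ lam s) (hm (ssFlow S s)) := h
  have hE : ∀ s < 0, Ent (hm (ssFlow S s)) D := fun s hs =>
    (hw s hs).ent ((hR s).mono fun _ hi => hi.gs.ent s le_rfl) (hlf s hs)
  have hgood : ∀ t < 0, ∀ x : E3, (t, x) ∈ Good atTop (fun lam => rescaled 2 μ x₀ t₀ lam)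
      fun lam => scaleReg lam x₀ t₀ (RegS μ) := fun t ht' x => by
    obtain ⟨δ, d0, d1, d2⟩ := exists_delta hS.1 (ss_one S ▸ hE (-1) (by norm_num)) x ht'
      (lt_min e0 e1)
    exact h2 _ (min_le_right _ _) _ _ _ x t δ _ (hR _) (hE _ (by linarith)) (hw _ (by linarith))
      d0 d1 d2
  refine ⟨fun lam => scaleReg lam x₀ t₀ (RegS μ), slim_top isOpen_Iio
    ((hR 0).mono fun _ hi => hi.mcfOn) hgood fun U hU => ?_, fun t ht' x => ?_,
    (hR 0).mono fun _ hi => hi.meas⟩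
  · have a1 := fun b => (hR b).filter_mono hU
    obtain ⟨ν, a2, a3⟩ := exists_lim U fun b => (a1 b).mono fun _ hi => hi.gs
    have a4 : ∀ s, Ent (ν s) D := fun s => (a2 s).ent s le_rfl
    have a5 : ∀ t ∈ Iio (0 : ℝ), ∀ x : E3, (t, x) ∈ Good U (fun lam => rescaled 2 μ x₀ t₀ lam)
        fun lam => scaleReg lam x₀ t₀ (RegS μ) := fun t ht' x =>
      let ⟨W, hW, r, C, hr, b⟩ := hgood t ht' x
      ⟨W, hW, r, C, hr, b.filter_mono hU⟩
    have a6 := mcf_good a1 a4 a3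
    have a7 := mcf_of_on ⟨a6.1, a6.2, a6.3⟩ isOpen_Iio a5
    refine ((slimOn_good a1 a4 a3).slim a5).congr isOpen_Iio fun s hs => ?_
    have b1 := meas_good a1 a4 a3 s
    have b0 : tsl (Good U (fun lam => rescaled 2 μ x₀ t₀ lam)
        fun lam => scaleReg lam x₀ t₀ (RegS μ)) s = univ := eq_univ_of_forall (a5 s hs)
    rw [b0, Measure.restrict_univ, inter_univ] at b1
    have b2 : hm (Spt ν s) = hm (ssFlow S s) :=
      b1.symm.trans ((a3 s).unique ((hw s hs).mono hU) (a4 s).lf (hlf s hs))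
    exact (subset_of_hm (a7.isSurf hs) (hL.isSurf hs).1 b2).antisymm
      (subset_of_hm (hL.isSurf hs) (a7.isSurf hs).1 b2.symm)
  · obtain ⟨W, hW, _, _, -, b⟩ := hgood t ht' x
    exact ⟨W, hW, b.mono fun _ hi => hi.1⟩

lemma restrict_on {m : Measure E3} {N T V Z : Set E3} (h : m.restrict T = hm (N ∩ T))
    (hV : IsOpen V) (hT : V ⊆ T) (hZ : ∀ y, y ∈ Z ↔ y ∈ V ∧ y ∈ N) : m.restrict V = hm Z := by
  rw [← Measure.restrict_restrict_of_subset hT, h, hm, hm,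
    Measure.restrict_restrict hV.measurableSet]
  congr 1
  ext y
  exact ⟨fun hy => (hZ y).2 ⟨hy.1, hy.2.1⟩, fun hy =>
    ⟨((hZ y).1 hy).1, ((hZ y).1 hy).2, hT ((hZ y).1 hy).1⟩⟩

theorem smooth_of_conv {μ : ℝ → Measure E3} (hμ : IsIntegralBrakkeFlow 2 μ)
    (hU : P218G.St.IsUnitRegular μ) (hR : ∃ R : ℝ, μ 0 (closedBall 0 R)ᶜ = 0) {x₀ : E3} {t₀ : ℝ}
    (ht : 0 < t₀) {S : Set E3} (hS : P218G.St.IsSelfShrinker S)
    (h : P218G.St.ConvergesTo μ x₀ t₀ S) : St.SmoothlyConvergesTo μ x₀ t₀ S := by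
  obtain ⟨R, hR⟩ := hR
  have hS' : IsShr S := (isShr_iff S).1 hS
  obtain ⟨K, h1, h2, h3⟩ := slim_of_conv hμ (mass_lt hμ hR) hU.lit ht hS'
    (x₀ := x₀) fun s hs φ a b => by
      rw [ssFlow_eq S hs]
      exact h s hs φ a b
  intro s hs x
  obtain ⟨V, hV, h4⟩ := h2 s hs x
  have hneg : ∀ᶠ p : ℝ × E3 in 𝓝 (s, x), p.1 < 0 :=
    continuous_fst.continuousAt.eventually (gt_mem_nhds hs)
  by_cases hx : x ∈ ssFlow S s
  · obtain ⟨W, w, v, a1, a2, a3, a4, a5, a6, a7, a8⟩ := h1.loc s hs x hx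
    have a9 : IsEqnT (ssFlow S) (s, x) v := ⟨a4, a6, mem_of_superset (a1.mem_nhds a2) a7⟩
    obtain ⟨O, b1, b2, b3⟩ := _root_.mem_nhds_iff.1
      (inter_mem (inter_mem hV (a1.mem_nhds a2)) (hneg.and a9.eventually))
    refine ⟨O, w, v, b2, b3, a4, a3, fun p hp => ⟨(b1 hp).2.1, ?_, fun _ => (b1 hp).2.2.2.1⟩, ?_,
      fun k => (a5.conv k).mono fun p hp => (b1 hp).1.2⟩
    · rw [← ssFlow_eq S (b1 hp).2.1]
      exact a7 p (b1 hp).1.2
    · filter_upwards [h3, h4, a8] with lam c1 c2 c3 τ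
      exact restrict_on (c1 τ) (Gl.isOpen_tsl b2 τ) (fun y hy => c2 (b1 hy).1.1) fun y =>
        and_congr_right fun hy => (c3 _ (b1 hy).1.2).symm
  · obtain ⟨W, a1, a2⟩ := h1.out s hs x hx
    obtain ⟨O, b1, b2, b3⟩ := _root_.mem_nhds_iff.1 (inter_mem (inter_mem hV a1)
      (hneg.and ((isMCF_ssFlow hS').closed s hs x hx)))
    refine ⟨O, fun _ _ => 1, fun _ => 1, b2, b3, contDiff_const, fun _ => contDiff_const,
      fun p hp => ⟨(b1 hp).2.1, ?_, fun h0 => absurd h0 one_ne_zero⟩, ?_,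
      fun k u hu => Eventually.of_forall fun _ _ _ => refl_mem_uniformity hu⟩
    · rw [← ssFlow_eq S (b1 hp).2.1]
      exact iff_of_false (b1 hp).2.2 one_ne_zero
    · filter_upwards [h3, h4, a2] with lam c1 c2 c3 τ
      exact restrict_on (c1 τ) (Gl.isOpen_tsl b2 τ) (fun y hy => c2 (b1 hy).1.1) fun y =>
        and_congr_right fun hy => iff_of_false one_ne_zero (c3 _ (b1 hy).1.2)

end Vale.Agent.P218S2
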