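import Vale.Agent.P218G.ConvL2

/-! Smooth convergence along every ultrafilter, with uniform two-point bounds, gives smooth
convergence. -/

open Set Filter Topology Metric
open scoped ContDiff RealInnerProductSpace

namespace Vale.Agent.P218S2

open Vale.Agent.P218FT Vale.Agent.P218FT.Chart Vale.Agent.P218G.WL Vale.Agent.P218G.CL
open Vale.Agent.P218FT.Conv hiding GD exists_gd exists_cyl exists_graphs comp_loc comp_proof

lemma exists_pts {N : ℝ → Set E3} {x : E3} (h : ∀ V ∈ 𝓝 x, ∀ᶠ i in atTop, ∃ y ∈ V, y ∈ N i) :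
    ∃ y : ℝ → E3, Tendsto y atTop (𝓝 x) ∧ ∀ᶠ i in atTop, y i ∈ N i := by
  have h1 : ∀ i : ℝ, ∃ y, (N i).Nonempty →
      y ∈ N i ∧ dist x y < infDist x (N i) + Real.exp (-i) := fun i => by
    by_cases hn : (N i).Nonempty
    · obtain ⟨y, a, b⟩ := (infDist_lt_iff hn).1 (lt_add_of_pos_right _ (Real.exp_pos (-i)))
      exact ⟨y, fun _ => ⟨a, b⟩⟩
    · exact ⟨x, fun h => absurd h hn⟩
  choose y hy using h1
  have h2 : ∀ᶠ i in atTop, (N i).Nonempty := (h univ univ_mem).mono fun i ⟨z, _, hz⟩ => ⟨z, hz⟩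
  refine ⟨y, Metric.tendsto_nhds.2 fun ε hε => ?_, h2.mono fun i hi => (hy i hi).1⟩
  filter_upwards [h2, h _ (ball_mem_nhds x (half_pos hε)),
    Real.tendsto_exp_neg_atTop_nhds_zero.eventually (gt_mem_nhds (half_pos hε))] with i a ⟨z, b, c⟩ d
  have := infDist_le_dist_of_mem (x := x) c
  rw [dist_comm]
  linarith [(hy i a).2, mem_ball'.1 b]

variable {M : ℝ → ℝ → Set E3} {K : ℝ → Set (ℝ × E3)} {L : ℝ → Set E3} {I : Set ℝ}

lemma loc_top {t : ℝ} {x : E3} {r C : ℝ} (hr : 0 < r) (hC : 1 ≤ C) (hI : Icc (t - r) (t + r) ⊆ I)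
    (hM : ∀ᶠ i in atTop, MCFOn (M i) (K i) ∧
      (∀ s ∈ Icc (t - r) (t + r), ∀ z, ‖z - x‖ ≤ r → (s, z) ∈ K i) ∧
      ∀ s ∈ Icc (t - r) (t + r), ∀ z ∈ M i s, ‖z - x‖ ≤ r → TwoPt (M i s) z r C)
    (h : ∀ U : Ultrafilter ℝ, (U : Filter ℝ) ≤ atTop → SLim U M L I) (hxL : x ∈ L t) :
    ∃ (W : Set (ℝ × E3)) (w : ℝ → ℝ × E3 → ℝ) (v : ℝ × E3 → ℝ),
      IsOpen W ∧ (t, x) ∈ W ∧ (∀ i, ContDiff ℝ ∞ (w i)) ∧ ContDiff ℝ ∞ v ∧ CInf atTop W w v ∧
      gradient (fun y => v (t, y)) x ≠ 0 ∧ (∀ p ∈ W, p.2 ∈ L p.1 ↔ v p = 0) ∧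
      ∀ᶠ i in atTop, ∀ p ∈ W, p.2 ∈ M i p.1 ↔ w i p = 0 := by
  obtain ⟨ρ, hρ, hρr, hρC, hρ1⟩ := exists_rho hr hC
  have hρ2 : ρ ^ 2 ≤ ρ := by nlinarith
  have hρ3 : 0 < ρ ^ 2 := by positivity
  have ht : t ∈ Icc (t - r) (t + r) := ⟨by linarith, by linarith⟩
  obtain ⟨y, y1, y2⟩ := exists_pts (N := fun i => M i t) (x := x) fun V hV =>
    mem_iff_ultrafilter.2 fun U hU => by
      obtain ⟨z, z1, z2⟩ := ((h U hU).slice_const (hI ht)).exists_seq hxL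
      exact (z2.and (z1.eventually hV)).mono fun i hi => ⟨z i, hi.2, hi.1⟩
  have hU₀ := Ultrafilter.of_le (atTop : Filter ℝ)
  obtain ⟨J, pr, F⟩ := exists_frame (((h _ hU₀).slice_const (hI ht)).norm_nu hxL)
  have h1 : ∀ᶠ i in atTop, 16 / 17 ≤ ⟪nu (M i t) (y i), nu (L t) x⟫ ^ 2 :=
    mem_iff_ultrafilter.2 fun U hU => by
      have := ((h U hU).slice_const (hI ht)).tendsto_even
        (Φ := fun q => ⟪q.1, nu (L t) x⟫ ^ 2) (by fun_prop) (by simp) hxL (y1.mono_left hU)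
        (y2.filter_mono hU)
      simp only [F.inner_n] at this
      exact this.eventually_const_le (by norm_num)
  generalize nu (L t) x = e at F h1
  have hy : ∀ᶠ i in atTop, ‖y i - x‖ ≤ ρ ^ 2 / 2 :=
    (y1.eventually (closedBall_mem_nhds x (half_pos hρ3))).mono fun i hi =>
      mem_closedBall_iff_norm.1 hi
  let P : ℝ → (P2 × ℝ → ℝ) → Prop := fun i f => ∃ O : Set (P2 × ℝ), IsOpen O ∧
    ContDiffOn ℝ ∞ f O ∧ cyl (pr (y i - x)) t (t - r) (t + r) ρ ⊆ O ∧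
    ∀ p ∈ cyl (pr (y i - x)) t (t - r) (t + r) ρ, GEq f p ∧ ‖gx f p‖ ≤ 1 ∧
      ‖hx f p‖ ≤ 16 * C ∧ |f p| ≤ 3 * ρ ∧
      ∀ z : ℝ, |z| ≤ 6 * ρ → (x + J p.1 + z • e ∈ M i p.2 ↔ z = f p)
  have h2 : ∀ᶠ i in atTop, ∃ f, P i f := by
    filter_upwards [hM, h1, hy, y2] with i a1 a2 a3 a4
    have e1 := decomp' F x (y i)
    exact exists_cyl (by linarith) hρ hρr hρC a1.1 x F ht a1.2.1 a1.2.2 (z₀ := ⟪e, y i - x⟫)
      ((F.norm_pr_le _).trans (by linarith)) ((abs_inner_le F _).trans (by linarith))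
      (e1.symm ▸ a4) (e1.symm ▸ a2)
  have h3 : ∀ i, ∃ f, (∃ f, P i f) → P i f := fun i => by
    by_cases hi : ∃ f, P i f
    · exact ⟨hi.choose, fun _ => hi.choose_spec⟩
    · exact ⟨0, fun h' => absurd h' hi⟩
  choose f h3 using h3
  have hf : ∀ᶠ i in atTop, P i (f i) := h2.mono h3
  let D : Set (P2 × ℝ) := ball 0 (ρ / 4) ×ˢ ball t (ρ ^ 2 / 4)
  have hD : IsOpen D := isOpen_ball.prod isOpen_ball
  have hsub : ∀ᶠ i in atTop, ∀ q ∈ D, closedBall q.1 (ρ / 4) ×ˢ Icc (q.2 - (ρ / 4) ^ 2) q.2 ⊆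
      cyl (pr (y i - x)) t (t - r) (t + r) ρ := by
    filter_upwards [hy] with i hi q hq a ha
    have b1 := mem_ball_zero_iff.1 hq.1
    have b2 := abs_lt.1 (mem_ball_iff_norm.1 hq.2)
    have b3 := mem_closedBall_iff_norm.1 ha.1
    have b4 := (F.norm_pr_le _).trans hi
    have b6 := ha.2.1
    have b7 := ha.2.2
    refine ⟨mem_closedBall_iff_norm.2 ?_, ⟨by linarith, by linarith⟩,
      mem_closedBall_iff_norm.2 (abs_le.2 ⟨by linarith, by linarith⟩)⟩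
    have c1 := norm_sub_le a.1 (pr (y i - x))
    have c2 := norm_le_insert' a.1 q.1
    linarith
  have hself : ∀ q : P2 × ℝ, q ∈ closedBall q.1 (ρ / 4) ×ˢ Icc (q.2 - (ρ / 4) ^ 2) q.2 := fun q =>
    ⟨mem_closedBall_self (by positivity), by linarith [sq_nonneg (ρ / 4)], le_rfl⟩
  have hbd : ∀ k, Bd k atTop D f := by
    refine Bd.of_forall ?_ fun j => ?_
    · filter_upwards [hf, hsub] with i ⟨O, a1, a2, a3, _⟩ a5
      exact a2.mono fun q hq => a3 (a5 q hq (hself q))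
    rcases Nat.eq_zero_or_pos j with rfl | hj
    · refine ⟨3 * ρ, ?_⟩
      filter_upwards [hf, hsub] with i ⟨O, _, _, _, a4⟩ a5 q hq
      rw [norm_iteratedFDeriv_zero]
      exact (a4 q (a5 q hq (hself q))).2.2.2.1
    · obtain ⟨B, hB⟩ := Int.int_proof j (16 * C) (ρ / 4) hj (by positivity)
      refine ⟨B, ?_⟩
      filter_upwards [hf, hsub] with i ⟨O, a1, a2, a3, a4⟩ a5 q hq
      exact hB (f i) O q.1 q.2 a1 a2 ((a5 q hq).trans a3) fun a ha =>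
        ⟨(a4 a (a5 q hq ha)).1, (a4 a (a5 q hq ha)).2.1.trans (by linarith),
          (a4 a (a5 q hq ha)).2.2.1⟩
  have hgr : ∀ᶠ i in atTop, ∀ q ∈ D, ∀ z : ℝ, |z| ≤ 6 * ρ →
      (x + J q.1 + z • e ∈ M i q.2 ↔ z = f i q) := by
    filter_upwards [hf, hsub] with i ⟨O, _, _, _, b4⟩ b5 q hq
    exact (b4 q (b5 q hq (hself q))).2.2.2.2
  have hfb : ∀ᶠ i in atTop, ∀ q ∈ D, |f i q| ≤ 3 * ρ := by
    filter_upwards [hf, hsub] with i ⟨O, _, _, _, b4⟩ b5 q hq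
    exact (b4 q (b5 q hq (hself q))).2.2.2.1
  have key : ∀ U : Ultrafilter ℝ, (U : Filter ℝ) ≤ atTop → ∀ g, CInf U D f g → ∀ q ∈ D,
      |g q| ≤ 3 * ρ ∧ ∀ z : ℝ, |z| < 6 * ρ → (x + J q.1 + z • e ∈ L q.2 ↔ z = g q) := by
    intro U hU g hg q hq
    have b2 := abs_lt.1 (mem_ball_iff_norm.1 hq.2)
    have hs := (h U hU).slice_const (hI (⟨by linarith, by linarith⟩ : q.2 ∈ Icc (t - r) (t + r)))
    refine ⟨le_of_tendsto (hg.tendsto hq).abs ((hfb.filter_mono hU).mono fun i hi => hi q hq),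
      fun z hz => ⟨fun hL => ?_, ?_⟩⟩
    · obtain ⟨u, u1, u2⟩ := hs.exists_seq hL
      have c1 : Tendsto (fun i => (pr (u i - x), q.2)) U (𝓝 q) := by
        have := ((pr.continuous.tendsto _).comp (u1.sub_const x)).prodMk_nhds
          (tendsto_const_nhds (x := q.2))
        simpa [add_assoc, F.pr_J, F.pr_n] using this
      have c2 : Tendsto (fun i => ⟪e, u i - x⟫) U (𝓝 z) := by
        have := (tendsto_const_nhds (x := e)).inner (𝕜 := ℝ) (u1.sub_const x)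
        simpa [add_assoc, inner_add_right, real_inner_smul_right, F.orth, F.unit] using this
      refine tendsto_nhds_unique c2 ((hg.tendsto_comp hD hq c1).congr' ?_)
      filter_upwards [u2, hgr.filter_mono hU, c1.eventually (hD.mem_nhds hq),
        c2.abs.eventually (gt_mem_nhds hz)] with i d1 d2 d3 d4
      exact ((d2 _ d3 _ d4.le).1 ((decomp' F x (u i)).symm ▸ d1)).symm
    · rintro rfl
      refine hs.mem_of_tendsto (((hg.tendsto hq).smul_const e).const_add (x + J q.1))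
        (Eventually.frequently ?_)
      filter_upwards [hgr.filter_mono hU, hfb.filter_mono hU] with i d1 d2
      exact (d1 q hq _ ((d2 q hq).trans (by linarith))).2 rfl
  have hc : Convex ℝ D := (convex_ball _ _).prod (convex_ball _ _)
  have hb : Bornology.IsBounded D := isBounded_ball.prod isBounded_ball
  obtain ⟨f₀, hf₁⟩ := exists_cinf _ hD hc hb fun k => (hbd k).mono_filter hU₀
  have k₀ := key _ hU₀ f₀ hf₁
  have hf₀ : CInf atTop D f f₀ := cinf_of_tendsto hD hc hb hbd fun q hq =>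
    (tendsto_iff_ultrafilter _ _ _).2 fun U hU => by
      obtain ⟨g, hg⟩ := exists_cinf U hD hc hb fun k => (hbd k).mono_filter hU
      have k₁ := key U hU g hg q hq
      have k₂ : |g q| < 6 * ρ := by linarith [k₁.1]
      rw [← ((k₀ q hq).2 _ k₂).1 ((k₁.2 _ k₂).2 rfl)]
      exact hg.tendsto hq
  have hball : ∀ q ∈ ball (t, x) (ρ ^ 2 / 4), (pr (q.2 - x), q.1) ∈ D ∧ |⟪e, q.2 - x⟫| < 6 * ρ := by
    intro q hq
    rw [← ball_prod_same] at hq
    have b1 := mem_ball_iff_norm.1 hq.2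
    exact ⟨⟨mem_ball_zero_iff.2 ((F.norm_pr_le _).trans_lt (by linarith)), hq.1⟩,
      (abs_inner_le F _).trans_lt (by linarith)⟩
  obtain ⟨δ, w, v, hδ, a1, a2, a3, a4, a5, a6⟩ := exists_equations hD hf₀
    (A := fun q : ℝ × E3 => (pr (q.2 - x), q.1)) (by fun_prop)
    (ℓ := fun q : ℝ × E3 => ⟪e, q.2 - x⟫) (contDiff_const.inner ℝ (by fun_prop))
    (q₀ := (t, x)) (by positivity : 0 < ρ ^ 2 / 4) fun q hq => (hball q hq).1
  refine ⟨ball (t, x) δ, w, v, isOpen_ball, mem_ball_self hδ, a2, a3, a4, ?_, fun q hq => ?_, ?_⟩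
  · refine grad_ne_zero (e := e) (c := f₀ (0, t)) ((contDiff_sl a3 t).differentiable (by simp) x) ?_
    have b1 : Tendsto (fun s : ℝ => (t, x + s • e)) (𝓝 0) (𝓝 (t, x)) :=
      Continuous.tendsto' (by fun_prop) _ _ (by simp)
    filter_upwards [b1.eventually (ball_mem_nhds _ hδ)] with s hs
    rw [a6 _ hs]
    simp [F.pr_n, real_inner_smul_right, F.unit]
  · have b3 := (k₀ _ (hball q (a1 hq)).1).2 _ (hball q (a1 hq)).2
    rw [decomp' F] at b3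
    rw [a6 q hq, sub_eq_zero]
    exact b3
  · filter_upwards [hgr, a5] with i b1 b2 q hq
    have b3 := b1 _ (hball q (a1 hq)).1 _ (hball q (a1 hq)).2.le
    rw [decomp' F] at b3
    rw [b2 q hq, sub_eq_zero]
    exact b3

/-- **from ultrafilters to the full limit** -/
theorem slim_top (hI : IsOpen I) (hM : ∀ᶠ i in atTop, MCFOn (M i) (K i))
    (hT : ∀ t ∈ I, ∀ x : E3, ∃ W ∈ 𝓝 (t, x), ∃ r C : ℝ, 0 < r ∧ ∀ᶠ i in atTop, W ⊆ K i ∧
      ∀ p ∈ W, p.2 ∈ M i p.1 → TwoPt (M i p.1) p.2 r C)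
    (h : ∀ U : Ultrafilter ℝ, (U : Filter ℝ) ≤ atTop → SLim U M L I) : SLim atTop M L I := by
  refine ⟨fun t ht x hx => ?_, fun t ht x hx => ?_⟩
  · by_contra h1
    have h2 : ∃ᶠ q : ℝ × ℝ × E3 in atTop ×ˢ 𝓝 (t, x), q.2.2 ∈ M q.1 q.2.1 := fun h2 => by
      obtain ⟨A, hA, B, hB, h3⟩ := mem_prod_iff.1 h2
      exact h1 ⟨B, hB, mem_of_superset hA fun i hi p hp => h3 (mk_mem_prod hi hp)⟩
    obtain ⟨V, h3, h4⟩ : ∃ V : Ultrafilter (ℝ × ℝ × E3),
        (V : Filter (ℝ × ℝ × E3)) ≤ atTop ×ˢ 𝓝 (t, x) ∧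
        {q : ℝ × ℝ × E3 | q.2.2 ∈ M q.1 q.2.1} ∈ (V : Filter (ℝ × ℝ × E3)) :=
      (exists_ultrafilter_le (h := frequently_iff_neBot.1 h2)).imp fun _ hV =>
        ⟨hV.trans inf_le_left, le_principal_iff.1 (hV.trans inf_le_right)⟩
    obtain ⟨W, hW, h5⟩ := (h (V.map Prod.fst) (tendsto_fst.mono_left h3)).out t ht x hx
    obtain ⟨q, a1, a2, a3⟩ := ((show ∀ᶠ q : ℝ × ℝ × E3 in V, ∀ p ∈ W, p.2 ∉ M q.1 p.1 from h5).and
      (((tendsto_snd.mono_left h3).eventually hW).and h4)).exists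
    exact a1 _ a2 a3
  · obtain ⟨W, hW, r, C, hr, h1⟩ := hT t ht x
    obtain ⟨r₁, hr₁, h3⟩ := nhds_basis_closedBall.mem_iff.1
      (inter_mem hW ((hI.prod isOpen_univ).mem_nhds (mk_mem_prod ht (mem_univ x))))
    have m1 : min r r₁ ≤ r₁ := min_le_right _ _
    have hin : ∀ s ∈ Icc (t - min r r₁) (t + min r r₁), ∀ z, ‖z - x‖ ≤ min r r₁ →
        (s, z) ∈ W ∩ I ×ˢ univ := by
      intro s hs z hzx
      rw [← Real.closedBall_eq_Icc] at hs
      refine h3 ?_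
      rw [← closedBall_prod_same]
      exact ⟨closedBall_subset_closedBall m1 hs, mem_closedBall_iff_norm.2 (hzx.trans m1)⟩
    refine loc_top (K := K) (r := min r r₁) (C := max C 1) (lt_min hr hr₁) (le_max_right _ _)
      (fun s hs => (hin s hs x (by simpa using ⟨hr.le, hr₁.le⟩)).2.1) ?_ h hx
    filter_upwards [hM, h1] with i a1 a2
    exact ⟨a1, fun s hs z hz => a2.1 (hin s hs z hz).1, fun s hs z hz hzx =>
      twoPt_mono' (a2.2 (s, z) (hin s hs z hzx).1 hz) (min_le_left _ _) (le_max_left _ _)⟩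

end Vale.Agent.P218S2
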